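import Vale.Agent.P217.LT

/-!
# P217: the height ideals cut out the height loci
-/

namespace Vale.Agent.P217B7

open Vale.Agent.P217.LT

/-- For `1 ≤ h ≤ n` the ideal `I_h = (p, u_1, …, u_{h-1})` cuts out the locus where `F` has height
at least `h`: a prime ideal `P` of `E₀` contains `I_h` if and only if `X^(p^h)` divides the
`p`-series of the reduction of `F` modulo `P`. -/
def CutsOut (p n : ℕ) [Fact p.Prime] (F : FormalGroup (E0 p n)) : Prop :=
  ∀ h : ℕ, 1 ≤ h → h ≤ n → ∀ P : Ideal (E0 p n), P.IsPrime →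
    (heightIdeal p n h ≤ P ↔
      PowerSeries.X ^ p ^ h ∣ multSeries (F.map (Ideal.Quotient.mk P)) p)

end Vale.Agent.P217B7
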