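import Vale.Agent.P217B7.Lead

/-!
# P217 bridge: two commutative laws over `𝔽_p` with `[p](X) = X^(p^n)` are strictly isomorphic
-/

namespace Vale.Agent.P217B7

open MvPowerSeries Vale.Agent.P217

section General

variable {κ : Type*} [Field κ]

/-- `v` is a strict isomorphism `G → F` modulo degree `N`. -/
def Ap (F G : FormalGroup κ) (N : ℕ) (v : PowerSeries κ) : Prop :=
  PowerSeries.constantCoeff v = 0 ∧ PowerSeries.coeff 1 v = 1 ∧
    (PowerSeries.subst G.toPowerSeries v : MvPowerSeries (Fin 2) κ) -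
      F.toPowerSeries.subst
        ![(PowerSeries.subst (X 0 : MvPowerSeries (Fin 2) κ) v : MvPowerSeries (Fin 2) κ),
          (PowerSeries.subst (X 1 : MvPowerSeries (Fin 2) κ) v : MvPowerSeries (Fin 2) κ)] ∈
      O κ (Fin 2) N

theorem O_ps_one {v : PowerSeries κ} (h : PowerSeries.constantCoeff v = 0) : v ∈ O κ Unit 1 :=
  O_one.2 h

theorem ap_base (F G : FormalGroup κ) : Ap F G 2 PowerSeries.X := by
  refine ⟨PowerSeries.constantCoeff_X, by simp, ?_⟩
  rw [PowerSeries.subst_X (psHas (O_FG G)), PowerSeries.subst_X (psHas (O_X 0)),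
    PowerSeries.subst_X (psHas (O_X 1))]
  have h := Ideal.sub_mem _ (O_FG2 G) (O_FG_subst2 F (O_X (0 : Fin 2)) (O_X 1))
  rwa [sub_sub_sub_cancel_right] at h

theorem subst_XX (D : MvPowerSeries (Fin 2) κ) :
    D.subst ![(X 0 : MvPowerSeries (Fin 2) κ), X 1] = D := by
  have e : (![(X 0 : MvPowerSeries (Fin 2) κ), X 1] : Fin 2 → MvPowerSeries (Fin 2) κ) = X := by
    funext s
    fin_cases s <;> rfl
  rw [e, subst_self]
  rfl

/-- the transported law is congruent to `F`. -/
theorem ap_transport {F G G' : FormalGroup κ} {N : ℕ} {v : PowerSeries κ} (h : Ap F G N v)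
    (hiso : IsIso G G' v) : G'.toPowerSeries - F.toPowerSeries ∈ O κ (Fin 2) N := by
  obtain ⟨h0, h1, h2⟩ := h
  obtain ⟨w, w0, -, hw, -⟩ := exists_comp_inv h0 hiso.2
  have a0 := O_psubst (O_ps_one h0) (O_X (R := κ) (0 : Fin 2))
  have a1 := O_psubst (O_ps_one h0) (O_X (R := κ) (1 : Fin 2))
  have b0 := O_psubst (O_ps_one w0) (O_X (R := κ) (0 : Fin 2))
  have b1 := O_psubst (O_ps_one w0) (O_X (R := κ) (1 : Fin 2))
  rw [hiso.1.2, ← sub_subst F G' a0 a1] at h2
  have h3 := O_subst2 h2 b0 b1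
  have hb := hasSubst2 b0 b1
  have key : ∀ s : Fin 2, (PowerSeries.subst (PowerSeries.subst (X s : MvPowerSeries (Fin 2) κ) w :
      MvPowerSeries (Fin 2) κ) v : MvPowerSeries (Fin 2) κ) = X s := by
    intro s
    rw [← PowerSeries.subst_comp_subst_apply (psHas (O_ps_one w0)) (psHas (O_X s)), hw,
      PowerSeries.subst_X (psHas (O_X s))]
  rw [fbSubst_pair_comp (O_one.1 a0) (O_one.1 a1) hb, psubst_comp (constantCoeff_X _) hb,
    psubst_comp (constantCoeff_X _) hb, subst_X hb, subst_X hb] at h3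
  change MvPowerSeries.subst ![PowerSeries.subst (PowerSeries.subst
    (X 0 : MvPowerSeries (Fin 2) κ) w : MvPowerSeries (Fin 2) κ) v, PowerSeries.subst
    (PowerSeries.subst (X 1 : MvPowerSeries (Fin 2) κ) w : MvPowerSeries (Fin 2) κ) v] _ ∈ _ at h3
  rwa [key, key, subst_XX] at h3

/-- a leading term which is a multiple of the coboundary of `X^N`. -/
theorem O_cobd (F G : FormalGroup κ) {N : ℕ} (hN : 1 ≤ N) {c : κ}
    (hD : G.toPowerSeries - F.toPowerSeries ∈ O κ (Fin 2) N)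
    (hc : ∀ i, 1 ≤ i → i < N → coeff (Finsupp.single 0 i + Finsupp.single 1 (N - i))
      (G.toPowerSeries - F.toPowerSeries) = c * (N.choose i : κ)) :
    G.toPowerSeries - F.toPowerSeries - C c * ((X 0 + X 1) ^ N - X 0 ^ N - X 1 ^ N) ∈
      O κ (Fin 2) (N + 1) := by
  classical
  refine mem_O.2 fun d hd => ?_
  rw [uc_degree2] at hd
  have e0 : coeff d ((X 0 : MvPowerSeries (Fin 2) κ) ^ N) =
      if d 0 = N ∧ d 1 = 0 then 1 else 0 := by
    rw [X_pow_eq, coeff_monomial]
    refine if_congr ⟨fun h => ?_, fun h => ?_⟩ rfl rfl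
    · rw [h]
      simp
    · rw [← uc_exp2 d, h.1, h.2]
      simp
  have e1 : coeff d ((X 1 : MvPowerSeries (Fin 2) κ) ^ N) =
      if d 0 = 0 ∧ d 1 = N then 1 else 0 := by
    rw [X_pow_eq, coeff_monomial]
    refine if_congr ⟨fun h => ?_, fun h => ?_⟩ rfl rfl
    · rw [h]
      simp
    · rw [← uc_exp2 d, h.1, h.2]
      simp
  rw [map_sub _ (G.toPowerSeries - F.toPowerSeries), coeff_C_mul, map_sub _ (_ - _), map_sub _ (_ ^ N),
    uc_coeff_add_pow2, e0, e1]
  by_cases h : d 0 + d 1 = N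
  · rw [if_pos h]
    by_cases h0 : d 0 = 0
    · rw [coeff_pure F G d (Or.inl h0), if_neg (by omega), if_pos (by omega), h0]
      simp
    · by_cases h1 : d 1 = 0
      · have h2 : d 0 = N := by omega
        rw [coeff_pure F G d (Or.inr h1), if_pos (by omega), if_neg (by omega), h2]
        simp
      · have h3 := hc (d 0) (by omega) (by omega)
        have h4 : N - d 0 = d 1 := by omega
        rw [h4, uc_exp2] at h3
        rw [h3, if_neg (by omega), if_neg (by omega)]
        ring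
  · rw [mem_O.1 hD d (by rw [uc_degree2]; omega), if_neg h, if_neg (by omega), if_neg (by omega)]
    ring

/-- improving an approximate isomorphism. -/
theorem ap_improve {F G G' : FormalGroup κ} {M : ℕ} (hM : 1 ≤ M) {v : PowerSeries κ} {c : κ}
    (h : Ap F G (M + 1) v) (hiso : IsIso G G' v)
    (hc : G'.toPowerSeries - F.toPowerSeries -
      C c * ((X 0 + X 1) ^ (M + 1) - X 0 ^ (M + 1) - X 1 ^ (M + 1)) ∈ O κ (Fin 2) (M + 1 + 1)) :
    Ap F G (M + 1 + 1) (v - PowerSeries.C c * v ^ (M + 1)) := by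
  obtain ⟨h0, h1, -⟩ := h
  have hv := O_ps_one h0
  have hpow := Ideal.mul_mem_left _ (PowerSeries.C c) (O_pow hv (M + 1))
  refine ⟨?_, ?_, ?_⟩
  · exact O_one.1 (Ideal.sub_mem _ hv (O_anti (by omega) hpow))
  · rw [map_sub, h1, mem_O_ps.1 hpow 1 (by omega), sub_zero]
  · have key : ∀ a : MvPowerSeries (Fin 2) κ, a ∈ O κ (Fin 2) 1 →
        (PowerSeries.subst a (v - PowerSeries.C c * v ^ (M + 1)) : MvPowerSeries (Fin 2) κ) =
          PowerSeries.subst a v - C c * (PowerSeries.subst a v) ^ (M + 1) := by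
      intro a ha
      rw [PowerSeries.subst_sub (psHas ha), PowerSeries.subst_mul (psHas ha),
        PowerSeries.subst_pow (psHas ha), PowerSeries.subst_C]
    have a0 := O_psubst hv (O_X (R := κ) (0 : Fin 2))
    have a1 := O_psubst hv (O_X (R := κ) (1 : Fin 2))
    rw [key _ (O_FG G), key _ (O_X 0), key _ (O_X 1), hiso.1.2]
    generalize (PowerSeries.subst (X 0 : MvPowerSeries (Fin 2) κ) v : MvPowerSeries (Fin 2) κ) = a
      at a0 ⊢
    generalize (PowerSeries.subst (X 1 : MvPowerSeries (Fin 2) κ) v : MvPowerSeries (Fin 2) κ) = a'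
      at a1 ⊢
    have p0 := Ideal.mul_mem_left _ (C c) (O_pow a0 (M + 1))
    have p1 := Ideal.mul_mem_left _ (C c) (O_pow a1 (M + 1))
    have b0 := Ideal.sub_mem _ a0 (O_anti (by omega : 1 ≤ M + 1) p0)
    have b1 := Ideal.sub_mem _ a1 (O_anti (by omega : 1 ≤ M + 1) p1)
    have h2 := O_FG_sub F a0 a1 b0 b1 (k := M + 1) (by rwa [sub_sub_cancel])
      (by rwa [sub_sub_cancel])
    have h3 := Ideal.mul_mem_left _ (C c) (O_pow_sub (O_FG_subst G' a0 a1)
      (Ideal.add_mem _ a0 a1) (O_FG_subst2 G' a0 a1) M)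
    have h4 := O_subst2 hc a0 a1
    have hs := hasSubst2 a0 a1
    rw [subst_sub hs, subst_sub hs, subst_mul hs, subst_sub hs, subst_sub hs, subst_pow hs,
      subst_pow hs, subst_pow hs, subst_add hs, subst_X hs, subst_X hs, subst_C] at h4
    have h5 := Ideal.sub_mem _ (Ideal.add_mem _ h2 h4) h3
    convert h5 using 1
    simp only [Matrix.cons_val_zero, Matrix.cons_val_one]
    ring

/-- passing to the limit. -/
theorem exists_iso_of_step (F G : FormalGroup κ)
    (step : ∀ M v, Ap F G (M + 2) v → ∃ v', Ap F G (M + 1 + 2) v' ∧ v' - v ∈ O κ Unit (M + 2)) :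
    ∃ v, IsIso G F v ∧ PowerSeries.coeff 1 v = 1 := by
  have step' : ∀ M (x : {v // Ap F G (M + 2) v}), ∃ y : {v // Ap F G (M + 1 + 2) v},
      y.1 - x.1 ∈ O κ Unit (M + 2) := fun M x => by
    obtain ⟨v', h1, h2⟩ := step M x.1 x.2
    exact ⟨⟨v', h1⟩, h2⟩
  choose f hf using step'
  let s : (M : ℕ) → {v // Ap F G (M + 2) v} := fun M =>
    Nat.rec (motive := fun M => {v // Ap F G (M + 2) v}) ⟨PowerSeries.X, ap_base F G⟩ f M
  have hs : ∀ M, (s (M + 1)).1 - (s M).1 ∈ O κ Unit (M + 2) := fun M => hf M (s M)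
  have hs' : ∀ M k, (s (M + k)).1 - (s M).1 ∈ O κ Unit (M + 2) := by
    intro M k
    induction k with
    | zero =>
      rw [add_zero, sub_self]
      exact Ideal.zero_mem _
    | succ k ih =>
      have h := Ideal.add_mem _ (O_anti (by omega : M + 2 ≤ M + k + 2) (hs (M + k))) ih
      rwa [sub_add_sub_cancel] at h
  let v : PowerSeries κ := PowerSeries.mk fun j => PowerSeries.coeff j (s j).1
  have hv : ∀ N, v - (s N).1 ∈ O κ Unit N := by
    intro N
    refine mem_O_ps.2 fun j hj => ?_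
    obtain ⟨k, rfl⟩ : ∃ k, N = j + k := ⟨N - j, by omega⟩
    have h := mem_O_ps.1 (hs' j k) j (by omega)
    rw [map_sub, sub_eq_zero] at h
    rw [map_sub, PowerSeries.coeff_mk, h, sub_self]
  have v0 : PowerSeries.constantCoeff v = 0 := by
    rw [← PowerSeries.coeff_zero_eq_constantCoeff_apply, PowerSeries.coeff_mk,
      PowerSeries.coeff_zero_eq_constantCoeff_apply]
    exact (s 0).2.1
  have v1 : PowerSeries.coeff 1 v = 1 := by
    rw [PowerSeries.coeff_mk]
    exact (s 1).2.2.1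
  refine ⟨v, ⟨⟨v0, ?_⟩, by rw [v1]; exact isUnit_one⟩, v1⟩
  rw [← sub_eq_zero]
  refine eq_zero_of_O fun N => ?_
  obtain ⟨t0, -, t2⟩ := (s N).2
  have d : ∀ a : MvPowerSeries (Fin 2) κ, a ∈ O κ (Fin 2) 1 →
      (PowerSeries.subst a v : MvPowerSeries (Fin 2) κ) - PowerSeries.subst a (s N).1 ∈
        O κ (Fin 2) N := by
    intro a ha
    rw [← PowerSeries.subst_sub (psHas ha)]
    exact O_psubst (hv N) ha
  have h1 := O_subst_sub (m := 0) (O_FG F) (O_psubst (O_ps_one v0) (O_X (R := κ) (0 : Fin 2)))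
    (O_psubst (O_ps_one v0) (O_X (R := κ) (1 : Fin 2)))
    (O_psubst (O_ps_one t0) (O_X (R := κ) (0 : Fin 2)))
    (O_psubst (O_ps_one t0) (O_X (R := κ) (1 : Fin 2))) (d _ (O_X 0)) (d _ (O_X 1))
  rw [zero_add] at h1
  have h2 := Ideal.sub_mem _ (Ideal.add_mem _ (d _ (O_FG G)) (O_anti (by omega : N ≤ N + 2) t2)) h1
  convert h2 using 1
  ring

end General

section Prime

variable {p : ℕ} [hp : Fact p.Prime]

theorem frob_subst (n : ℕ) (v : PowerSeries (ZMod p)) :
    (PowerSeries.subst (PowerSeries.X ^ p ^ n : PowerSeries (ZMod p)) v :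
      PowerSeries (ZMod p)) = v ^ p ^ n := by
  have h := MvPowerSeries.map_iterateFrobenius_expand (σ := Unit) p hp.out.ne_zero v n
  have e : iterateFrobenius (ZMod p) p n = RingHom.id _ :=
    RingHom.ext fun x => by rw [iterateFrobenius_def, ZMod.pow_card_pow, RingHom.id_apply]
  rw [e, MvPowerSeries.map_id] at h
  rw [← PowerSeries.expand_apply _ (pow_ne_zero n hp.out.ne_zero)]
  exact h

theorem series_transport {n : ℕ} {G G' : FormalGroup (ZMod p)} {v : PowerSeries (ZMod p)}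
    (hiso : IsIso G G' v) (hG : multSeries G p = PowerSeries.X ^ p ^ n) :
    multSeries G' p = PowerSeries.X ^ p ^ n := by
  obtain ⟨w, w0, -, hw, -⟩ := exists_comp_inv hiso.1.1 hiso.2
  have h1 := hiso.1.fbSubst_multSeries p
  rw [hG, frob_subst] at h1
  have h2 : (PowerSeries.subst w (v ^ p ^ n) : PowerSeries (ZMod p)) =
      PowerSeries.subst w (PowerSeries.subst v (multSeries G' p) : PowerSeries (ZMod p)) := by
    rw [h1]
  rw [psubst_psubst hiso.1.1 w0, hw, PowerSeries.X_subst,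
    PowerSeries.subst_pow (psHas (O_ps_one w0)), hw] at h2
  exact h2.symm

/-- **Two commutative laws over `𝔽_p` with `[p](X) = X^(p^n)` are strictly isomorphic.** -/
theorem exists_iso {n : ℕ} (F G : FormalGroup (ZMod p)) [F.IsComm] [G.IsComm]
    (hF : multSeries F p = PowerSeries.X ^ p ^ n) (hG : multSeries G p = PowerSeries.X ^ p ^ n) :
    ∃ v, IsIso G F v ∧ PowerSeries.coeff 1 v = 1 := by
  refine exists_iso_of_step F G fun M v h => ?_
  obtain ⟨G', hc', hiso⟩ := C0.exists_transport G v h.1 (by rw [h.2.1]; exact isUnit_one)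
  have hD := ap_transport h hiso
  obtain ⟨c, hc⟩ := exists_lead p F G' (by omega) hD
  have h1 : ∃ b : ZMod p, ∀ i, 1 ≤ i → i < M + 2 →
      coeff (Finsupp.single 0 i + Finsupp.single 1 (M + 2 - i))
        (G'.toPowerSeries - F.toPowerSeries) = b * ((M + 2).choose i : ZMod p) := by
    by_cases hr : ∃ r, M + 2 = p ^ r
    · obtain ⟨r, hr⟩ := hr
      have h0 : c = 0 := lead_zero p F G' (M := M + 1) (by omega) hr hD hc
        ((series_transport hiso hG).trans hF.symm)
      exact ⟨0, fun i h1 h2 => by rw [hc i h1 h2, h0, zero_mul, zero_mul]⟩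
    · exact ⟨c, fun i h1 h2 => by rw [hc i h1 h2, lz_cbar_of_not hr]⟩
  obtain ⟨b, hb⟩ := h1
  refine ⟨_, ap_improve (M := M + 1) (by omega) h hiso (O_cobd F G' (by omega) hD hb), ?_⟩
  rw [sub_sub_cancel_left]
  exact (Ideal.neg_mem_iff _).2 (Ideal.mul_mem_left _ _ (O_pow (O_ps_one h.1) _))

end Prime

end Vale.Agent.P217B7
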