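import Vale.Agent.P217B7.Order

/-!
# P217 bridge: Lazard's comparison lemma and its effect on the `p`-series
-/

namespace Vale.Agent.P217B7

open MvPowerSeries Vale.Agent.P217

variable {κ : Type*} [Field κ]

theorem coeff_left (D : MvPowerSeries (Fin 2) κ) (e : Fin 3 →₀ ℕ) :
    coeff e (D.subst ![(X 0 : MvPowerSeries (Fin 3) κ) + X 1, X 2]) =
      coeff (Finsupp.single 0 (e 0 + e 1) + Finsupp.single 1 (e 2)) D *
        ((e 0 + e 1).choose (e 0) : κ) := by
  rw [coeff_subst (hasSubst2 (Ideal.add_mem _ (O_X 0) (O_X 1)) (O_X 2)),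
    finsum_eq_single _ (Finsupp.single 0 (e 0 + e 1) + Finsupp.single 1 (e 2))]
  · rw [prod2, smul_eq_mul, uc_coeff_add_pow_left, if_pos (by simp)]
    simp
  · intro d hd
    rw [prod2, uc_coeff_add_pow_left, if_neg, smul_zero]
    rintro ⟨h1, h2⟩
    apply hd
    rw [h1, h2, uc_exp2]

theorem coeff_right (D : MvPowerSeries (Fin 2) κ) (e : Fin 3 →₀ ℕ) :
    coeff e (D.subst ![(X 0 : MvPowerSeries (Fin 3) κ), X 1 + X 2]) =
      coeff (Finsupp.single 0 (e 0) + Finsupp.single 1 (e 1 + e 2)) D *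
        ((e 1 + e 2).choose (e 1) : κ) := by
  rw [coeff_subst (hasSubst2 (O_X 0) (Ideal.add_mem _ (O_X 1) (O_X 2))),
    finsum_eq_single _ (Finsupp.single 0 (e 0) + Finsupp.single 1 (e 1 + e 2))]
  · rw [prod2, smul_eq_mul, uc_coeff_add_pow_right, if_pos (by simp)]
    simp
  · intro d hd
    rw [prod2, uc_coeff_add_pow_right, if_neg, smul_zero]
    rintro ⟨h1, h2⟩
    apply hd
    rw [h1, h2, uc_exp2]

theorem psHas {τ : Type*} {a : MvPowerSeries τ κ} (ha : a ∈ O κ τ 1) : PowerSeries.HasSubst a :=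
  fgHasSubst (O_one.1 ha)

theorem sub_subst (F G : FormalGroup κ) {τ : Type*} {a a' : MvPowerSeries τ κ}
    (ha : a ∈ O κ τ 1) (ha' : a' ∈ O κ τ 1) :
    ((G.toPowerSeries - F.toPowerSeries).subst ![a, a'] : MvPowerSeries τ κ) =
      G.toPowerSeries.subst ![a, a'] - F.toPowerSeries.subst ![a, a'] :=
  subst_sub (hasSubst2 ha ha') _ _

/-- the difference of two laws is a cocycle of the additive group in the lowest degree. -/
theorem cocycle_low (F G : FormalGroup κ) {M : ℕ}
    (hD : G.toPowerSeries - F.toPowerSeries ∈ O κ (Fin 2) (M + 1)) :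
    ((G.toPowerSeries - F.toPowerSeries).subst ![(X 0 : MvPowerSeries (Fin 3) κ) + X 1, X 2] :
        MvPowerSeries (Fin 3) κ) +
      (G.toPowerSeries - F.toPowerSeries).subst ![(X 0 : MvPowerSeries (Fin 3) κ), X 1] -
      (G.toPowerSeries - F.toPowerSeries).subst ![(X 0 : MvPowerSeries (Fin 3) κ), X 1 + X 2] -
      (G.toPowerSeries - F.toPowerSeries).subst ![(X 1 : MvPowerSeries (Fin 3) κ), X 2] ∈
        O κ (Fin 3) (M + 2) := by
  have x0 : (X 0 : MvPowerSeries (Fin 3) κ) ∈ O κ (Fin 3) 1 := O_X 0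
  have x1 : (X 1 : MvPowerSeries (Fin 3) κ) ∈ O κ (Fin 3) 1 := O_X 1
  have x2 : (X 2 : MvPowerSeries (Fin 3) κ) ∈ O κ (Fin 3) 1 := O_X 2
  have z : ∀ (k : ℕ) (a : MvPowerSeries (Fin 3) κ), a - a ∈ O κ (Fin 3) k := fun k a => by
    rw [sub_self]
    exact Ideal.zero_mem _
  have hA := O_FG_subst G x0 x1
  have hA' := O_FG_subst F x0 x1
  have hB := O_FG_subst G x1 x2
  have hB' := O_FG_subst F x1 x2
  have h1 := O_subst_sub hD hA x2 (Ideal.add_mem _ x0 x1) x2 (O_FG_subst2 G x0 x1) (z 2 _)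
  have h2 := O_subst_sub hD x0 hB x0 (Ideal.add_mem _ x1 x2) (z 2 _) (O_FG_subst2 G x1 x2)
  have d1 := O_subst2 hD x0 x1
  have d2 := O_subst2 hD x1 x2
  rw [sub_subst F G x0 x1] at d1
  rw [sub_subst F G x1 x2] at d2
  have h3 := O_FG_sub F hA x2 hA' x2 d1 (z _ _)
  have h4 := O_FG_sub F x0 hB x0 hB' (z _ _) d2
  have aG := G.assoc' (psHas x0) (psHas x1) (psHas x2)
  have aF := F.assoc' (psHas x0) (psHas x1) (psHas x2)
  rw [sub_subst F G hA x2] at h1
  rw [sub_subst F G x0 hB] at h2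
  rw [sub_subst F G x0 x1, sub_subst F G x1 x2]
  have h5 := Ideal.sub_mem _ (Ideal.add_mem _ h2 h4) (Ideal.add_mem _ h1 h3)
  convert h5 using 1
  rw [aG, aF]
  ring

/-- **Lazard's comparison lemma**. -/
theorem exists_lead (p : ℕ) [Fact p.Prime] [CharP κ p] (F G : FormalGroup κ) [F.IsComm]
    [G.IsComm] {N : ℕ} (hN : 2 ≤ N)
    (hD : G.toPowerSeries - F.toPowerSeries ∈ O κ (Fin 2) N) :
    ∃ c : κ, ∀ i, 1 ≤ i → i < N → coeff (Finsupp.single 0 i + Finsupp.single 1 (N - i))
      (G.toPowerSeries - F.toPowerSeries) = c * (cbar p N i : κ) := by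
  obtain ⟨M, rfl⟩ : ∃ M, N = M + 1 := ⟨N - 1, by omega⟩
  have hT := cocycle_low F G hD
  have x0 : (X 0 : MvPowerSeries (Fin 2) κ) ∈ O κ (Fin 2) 1 := O_X 0
  have x1 : (X 1 : MvPowerSeries (Fin 2) κ) ∈ O κ (Fin 2) 1 := O_X 1
  have hsw : ((G.toPowerSeries - F.toPowerSeries).subst
      ![(X 1 : MvPowerSeries (Fin 2) κ), X 0] : MvPowerSeries (Fin 2) κ) =
      G.toPowerSeries - F.toPowerSeries := by
    rw [sub_subst F G x1 x0]
    exact congrArg₂ (· - ·) (FormalGroup.IsComm.comm (F := G)).symm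
      (FormalGroup.IsComm.comm (F := F)).symm
  generalize G.toPowerSeries - F.toPowerSeries = D at hD hT hsw ⊢
  refine lazard_lemma (κ := κ) p (M + 1) hN
    (fun i => coeff (Finsupp.single 0 i + Finsupp.single 1 (M + 1 - i)) D) ?_ ?_
  · intro i hi hiN
    rw [Nat.sub_sub_self hiN.le, ← uc_coeff_swap, hsw]
  · intro i j k hi hj hk hijk
    let e : Fin 3 →₀ ℕ := Finsupp.single 0 i + Finsupp.single 1 j + Finsupp.single 2 k
    have e0 : e 0 = i := by simp [e]
    have e1 : e 1 = j := by simp [e]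
    have e2 : e 2 = k := by simp [e]
    have h := mem_O.1 hT e (by rw [uc_degree3, e0, e1, e2]; omega)
    rw [map_sub, map_sub, map_add, coeff_left, coeff_right,
      uc_coeff_XX 1 2 0 (by decide) (by decide) D e (by rw [e0]; omega),
      uc_coeff_XX 0 1 2 (by decide) (by decide) D e (by rw [e2]; omega), e0, e1, e2] at h
    have e3 : M + 1 - i = j + k := by omega
    have e4 : M + 1 - (i + j) = k := by omega
    rw [e3, e4]
    linear_combination -h

theorem coeff_pure (F G : FormalGroup κ) (d : Fin 2 →₀ ℕ) (h : d 0 = 0 ∨ d 1 = 0) :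
    coeff d (G.toPowerSeries - F.toPowerSeries) = 0 := by
  obtain ⟨H, hH⟩ := exists_FG_decomp F
  obtain ⟨K, hK⟩ := exists_FG_decomp G
  rcases h with h | h
  · refine X_dvd_iff.1 (⟨X 1 * (K - H), ?_⟩ : X 0 ∣ G.toPowerSeries - F.toPowerSeries) d h
    rw [hH, hK]
    ring
  · refine X_dvd_iff.1 (⟨X 0 * (K - H), ?_⟩ : X 1 ∣ G.toPowerSeries - F.toPowerSeries) d h
    rw [hH, hK]
    ring

/-- `∑_{0 < i < N} cbar p N i * m^i`. -/
noncomputable def S (p N m : ℕ) : ℕ := ∑ i ∈ Finset.Ico 1 N, cbar p N i * m ^ i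

theorem S_pow {p : ℕ} (hp : p.Prime) (r m : ℕ) :
    p * S p (p ^ r) m + m ^ p ^ r + 1 = (m + 1) ^ p ^ r := by
  have hN : 1 ≤ p ^ r := Nat.one_le_pow _ _ hp.pos
  rw [add_pow, Finset.sum_range_succ, Finset.range_eq_Ico, Finset.sum_eq_sum_Ico_succ_bot hN, S,
    Finset.mul_sum]
  have h1 : ∀ i ∈ Finset.Ico 1 (p ^ r), p * (cbar p (p ^ r) i * m ^ i) =
      m ^ i * 1 ^ (p ^ r - i) * ((p ^ r).choose i : ℕ) := by
    intro i hi
    rw [Finset.mem_Ico] at hi
    rw [lz_cbar_pow, ← mul_assoc,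
      Nat.mul_div_cancel' (hp.dvd_choose_pow (by omega) (by omega)), one_pow, mul_one, mul_comm]
  rw [Finset.sum_congr rfl h1]
  simp only [pow_zero, one_pow, mul_one, Nat.choose_zero_right, Nat.cast_id, zero_add,
    Nat.choose_self]
  ring

theorem sum_S_pow {p : ℕ} (hp : p.Prime) (r m : ℕ) :
    p * ∑ j ∈ Finset.range m, S p (p ^ r) j + m = m ^ p ^ r := by
  induction m with
  | zero => simp [hp.ne_zero]
  | succ m ih =>
    rw [Finset.sum_range_succ, ← S_pow hp r m, ← ih]
    ring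

theorem sum_S_cast (p : ℕ) [hp : Fact p.Prime] [CharP κ p] (r : ℕ) (hr : 2 ≤ p ^ r) :
    ((∑ j ∈ Finset.range p, S p (p ^ r) j : ℕ) : κ) = -1 := by
  have h := sum_S_pow hp.out r p
  obtain ⟨t, ht⟩ : ∃ t, p ^ r = t + 2 := ⟨p ^ r - 2, by omega⟩
  generalize (∑ j ∈ Finset.range p, S p (p ^ r) j) = s at h
  rw [ht] at h
  have h1 : s + 1 = p ^ t * p := by
    apply Nat.eq_of_mul_eq_mul_left hp.out.pos
    rw [mul_add, mul_one, h]
    ring
  have h2 := congrArg (Nat.cast : ℕ → κ) h1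
  rw [Nat.cast_add, Nat.cast_mul, CharP.cast_eq_zero κ p, mul_zero, Nat.cast_one] at h2
  exact eq_neg_of_add_eq_zero_left h2

theorem O_mult (F : FormalGroup κ) (m : ℕ) : multSeries F m ∈ O κ Unit 1 :=
  O_one.2 (constantCoeff_multSeries' F m)

theorem O_mult2 (F : FormalGroup κ) (m : ℕ) :
    multSeries F m - PowerSeries.C (m : κ) * PowerSeries.X ∈ O κ Unit 2 := by
  obtain ⟨h, hh⟩ := C0.exists_multSeries_decomp (F := F) m
  rw [hh, add_sub_cancel_left]
  exact Ideal.mul_mem_right _ _ (O_pow O_psX 2)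

/-- the effect of the comparison lemma on the series `[m]`. -/
theorem mult_lead (p : ℕ) (F G : FormalGroup κ) {M : ℕ} {c : κ}
    (hD : G.toPowerSeries - F.toPowerSeries ∈ O κ (Fin 2) (M + 1))
    (hc : ∀ i, 1 ≤ i → i < M + 1 → coeff (Finsupp.single 0 i + Finsupp.single 1 (M + 1 - i))
      (G.toPowerSeries - F.toPowerSeries) = c * (cbar p (M + 1) i : κ)) (m : ℕ) :
    multSeries G m - multSeries F m - PowerSeries.C (c *
      ((∑ j ∈ Finset.range m, S p (M + 1) j : ℕ) : κ)) * PowerSeries.X ^ (M + 1) ∈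
        O κ Unit (M + 2) := by
  induction m with
  | zero =>
    rw [multSeries_zero', multSeries_zero']
    simp
  | succ m ih =>
    have x : (PowerSeries.X : PowerSeries κ) ∈ O κ Unit 1 := O_psX
    have mx : PowerSeries.C (m : κ) * PowerSeries.X ∈ O κ Unit 1 := Ideal.mul_mem_left _ _ x
    have z : ∀ k : ℕ, (PowerSeries.X : PowerSeries κ) - PowerSeries.X ∈ O κ Unit k := fun k => by
      rw [sub_self]
      exact Ideal.zero_mem _
    have d0 : multSeries G m - multSeries F m ∈ O κ Unit (M + 1) := by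
      have h1 := Ideal.add_mem _ (O_anti (Nat.le_succ _) ih) (Ideal.mul_mem_left _
        (PowerSeries.C (c * ((∑ j ∈ Finset.range m, S p (M + 1) j : ℕ) : κ))) (O_pow x (M + 1)))
      rwa [sub_add_cancel] at h1
    have h1 := O_subst_sub hD (O_mult G m) x mx x (O_mult2 G m) (z 2)
    have h2 := O_FG_sub F (O_mult G m) x (O_mult F m) x d0 (z _)
    have h3 := O_subst2 (O_top hD) mx x
    have hs := hasSubst2 mx x
    have h4 : ((∑ i ∈ Finset.range (M + 1 + 1),
        C (coeff (Finsupp.single 0 i + Finsupp.single 1 (M + 1 - i))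
          (G.toPowerSeries - F.toPowerSeries)) * X 0 ^ i * X 1 ^ (M + 1 - i) :
          MvPowerSeries (Fin 2) κ).subst
        ![PowerSeries.C (m : κ) * PowerSeries.X, PowerSeries.X] : PowerSeries κ) =
        PowerSeries.C (c * (S p (M + 1) m : κ)) * PowerSeries.X ^ (M + 1) := by
      rw [← coe_substAlgHom hs, map_sum]
      have h5 : ∀ i ∈ Finset.range (M + 1 + 1), substAlgHom hs
          (C (coeff (Finsupp.single 0 i + Finsupp.single 1 (M + 1 - i))
            (G.toPowerSeries - F.toPowerSeries)) * X 0 ^ i * X 1 ^ (M + 1 - i) :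
            MvPowerSeries (Fin 2) κ) =
          PowerSeries.C (coeff (Finsupp.single 0 i + Finsupp.single 1 (M + 1 - i))
            (G.toPowerSeries - F.toPowerSeries) * (m : κ) ^ i) * PowerSeries.X ^ (M + 1) := by
        intro i hi
        rw [Finset.mem_range] at hi
        rw [map_mul, map_mul, map_pow, map_pow, substAlgHom_X, substAlgHom_X, coe_substAlgHom,
          subst_C]
        have e : (PowerSeries.X : PowerSeries κ) ^ (M + 1) =
            PowerSeries.X ^ i * PowerSeries.X ^ (M + 1 - i) := by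
          rw [← pow_add]
          congr 1
          omega
        rw [e, map_mul, map_pow]
        change PowerSeries.C _ * (PowerSeries.C (m : κ) * PowerSeries.X) ^ i *
          PowerSeries.X ^ (M + 1 - i) = _
        ring
      rw [Finset.sum_congr rfl h5, ← Finset.sum_mul, ← map_sum]
      congr 2
      rw [Finset.sum_range_succ, Finset.range_eq_Ico,
        Finset.sum_eq_sum_Ico_succ_bot (Nat.succ_pos M), coeff_pure F G _ (Or.inl (by simp)),
        coeff_pure F G _ (Or.inr (by simp)), zero_mul, zero_mul, zero_add, add_zero, S,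
        Nat.cast_sum, Finset.mul_sum]
      refine Finset.sum_congr rfl fun i hi => ?_
      rw [Finset.mem_Ico] at hi
      rw [hc i hi.1 hi.2]
      push_cast
      ring
    rw [subst_sub hs, h4] at h3
    rw [sub_subst F G (O_mult G m) x] at h1
    have h6 := Ideal.add_mem _ (Ideal.add_mem _ (Ideal.add_mem _ h1 h2) h3) ih
    rw [multSeries_succ', multSeries_succ', Finset.sum_range_succ, Nat.cast_add, mul_add, map_add]
    convert h6 using 1
    ring

/-- in degrees `p^r` the `p`-series determines the law. -/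
theorem lead_zero (p : ℕ) [Fact p.Prime] [CharP κ p] (F G : FormalGroup κ) {M r : ℕ} {c : κ}
    (hM : 1 ≤ M) (hr : M + 1 = p ^ r)
    (hD : G.toPowerSeries - F.toPowerSeries ∈ O κ (Fin 2) (M + 1))
    (hc : ∀ i, 1 ≤ i → i < M + 1 → coeff (Finsupp.single 0 i + Finsupp.single 1 (M + 1 - i))
      (G.toPowerSeries - F.toPowerSeries) = c * (cbar p (M + 1) i : κ))
    (h : multSeries G p = multSeries F p) : c = 0 := by
  have h1 := mem_O_ps.1 (mult_lead p F G hD hc p) (M + 1) (by omega)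
  have h2 : ((∑ j ∈ Finset.range p, S p (M + 1) j : ℕ) : κ) = -1 := by
    rw [hr]
    exact sum_S_cast p r (by omega)
  rw [h, sub_self, h2, zero_sub, map_neg, PowerSeries.coeff_C_mul, PowerSeries.coeff_X_pow_self]
    at h1
  linear_combination h1

end Vale.Agent.P217B7
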