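import Vale.Agent.P217B7.Trans
import Vale.Agent.P217B7.Defs

/-!
# P217 bridge: Chai's conjecture for every law over `𝔽_p` with `[p](X) = X^(p^n)`
-/

namespace Vale.Agent.P217B7

open MvPowerSeries Vale.Agent.P217

variable {p n : ℕ} [hp : Fact p.Prime] {Γ : FormalGroup (ZMod p)} {F : FormalGroup (E0 p n)}

theorem hId_le_quot {A : Type*} [CommRing A] (F : FormalGroup A) {h : ℕ} (h1 : 1 ≤ h)
    (P : Ideal A) :
    hId p F h ≤ P ↔ PowerSeries.X ^ p ^ h ∣ multSeries (F.map (Ideal.Quotient.mk P)) p := by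
  rw [hId_le_iff, PowerSeries.X_pow_dvd_iff, ← fbMap_multSeries]
  simp only [PowerSeries.coeff_map, Ideal.Quotient.eq_zero_iff_mem]
  refine ⟨fun H => H.2, fun H => ⟨?_, H⟩⟩
  have h2 := H 1 (Nat.one_lt_pow (by omega) hp.out.one_lt)
  rwa [C0.coeff_one_multSeries] at h2

theorem cutsOut_of_adapted (hH : HeightAdapted p n F) : CutsOut p n F := by
  intro h h1 h2 P _
  have e : LT.heightIdeal p n h = hId p F h := hH h h1 h2
  rw [e]
  exact hId_le_quot F h1 P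

theorem iso_honda (hn : 1 ≤ n) (hc : Γ.IsComm) (hΓ : multSeries Γ p = PowerSeries.X ^ p ^ n)
    {H : FormalGroup (ZMod p)} (hH : IsHonda p n H) :
    (∃ v, IsIso Γ H v ∧ PowerSeries.coeff 1 v = 1) ∧
      ∃ v, IsIso H Γ v ∧ PowerSeries.coeff 1 v = 1 := by
  have := hH.isComm hn
  have h1 : multSeries H p = PowerSeries.X ^ p ^ n := LTC.honda_series hn hH
  exact ⟨exists_iso H Γ h1 hΓ, exists_iso Γ H hΓ h1⟩

theorem exists_univ (hn : 1 ≤ n) (hc : Γ.IsComm) (hΓ : multSeries Γ p = PowerSeries.X ^ p ^ n) :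
    ∃ F, IsUniversalDeformation p n Γ F ∧ HeightAdapted p n F := by
  obtain ⟨H, hH⟩ := exists_isHonda (p := p) hn
  obtain ⟨v, hv, v1⟩ := (iso_honda hn hc hΓ hH).2
  obtain ⟨F₀, h1, h2⟩ := LTC.exists_universal hn hH
  obtain ⟨F, g, h3, h4⟩ := exists_univ_transport hv v1 h1
  exact ⟨F, h3, adapted_transport h4 h2⟩

theorem adapted_of_cutsOut (hn : 1 ≤ n) (hc : Γ.IsComm)
    (hΓ : multSeries Γ p = PowerSeries.X ^ p ^ n) (hF : IsUniversalDeformation p n Γ F)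
    (hC : CutsOut p n F) : HeightAdapted p n F := by
  obtain ⟨F₀, h1, h2⟩ := exists_univ hn hc hΓ
  obtain ⟨φ, g, hg⟩ := exists_equiv h1 hF
  intro h a1 a2
  have hP := isPrime_heightIdeal hn h a2 (p := p)
  have e0 : heightIdeal p n h = hId p F₀ h := h2 h a1 a2
  have e : hId p F h = (heightIdeal p n h).map φ := by
    rw [← hId_iso hg, hId_map, e0]
    rfl
  have hQ : (hId p F h).IsPrime := by
    rw [e]
    exact Ideal.map_isPrime_of_equiv φ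
  change heightIdeal p n h = hId p F h
  refine le_antisymm ((hC h a1 a2 _ hQ).2 ((hId_le_quot F a1 _).1 le_rfl))
    ((hId_le_quot F a1 _).2 ((hC h a1 a2 _ hP).1 le_rfl))

theorem chai_all (hn : 1 ≤ n) (hc : Γ.IsComm) (hΓ : multSeries Γ p = PowerSeries.X ^ p ^ n)
    (hF : IsUniversalDeformation p n Γ F) (hH : HeightAdapted p n F) (J : Ideal (E0 p n)) :
    ((J.IsPrime ∧ IsInvariant p n F J) ↔ ∃ h ≤ n, J = heightIdeal p n h) ∧
      ((J.IsRadical ∧ IsInvariant p n F J) ↔ (J = ⊤ ∨ ∃ h ≤ n, J = heightIdeal p n h)) := by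
  obtain ⟨H, hH'⟩ := exists_isHonda (p := p) hn
  obtain ⟨v, hv, v1⟩ := (iso_honda hn hc hΓ hH').1
  obtain ⟨F', g, h3, h4⟩ := exists_univ_transport hv v1 hF
  rw [invariant_iff h4]
  exact chai hn H hH' F' h3 (adapted_transport h4 hH) J

theorem final (p n : ℕ) [Fact p.Prime] (hn : 1 ≤ n) :
    (∃! H, LT.IsHonda p n H) ∧
    (∀ H, LT.IsHonda p n H → H.IsComm ∧ LT.multSeries H p = PowerSeries.X ^ p ^ n) ∧
    ∀ Γ : FormalGroup (ZMod p), Γ.IsComm → LT.multSeries Γ p = PowerSeries.X ^ p ^ n →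
      (∀ H, LT.IsHonda p n H → ∃ v, LT.IsIso Γ H v ∧ PowerSeries.coeff 1 v = 1) ∧
      (∃ F, LT.IsUniversal p n Γ F ∧ CutsOut p n F) ∧
      ∀ F, LT.IsUniversal p n Γ F → CutsOut p n F →
        (∀ σ γ, LT.IsIso (LT.base p n Γ) (LT.base p n Γ) γ →
          ∃ φ : LT.E0 p n ≃+* LT.E0 p n, ∀ ψ, LT.Acts p n Γ F σ γ ψ ↔ ψ = φ) ∧
        ∀ J : Ideal (LT.E0 p n),
          ((J.IsPrime ∧ LT.IsInvariant p n Γ F J) ↔ ∃ h ≤ n, J = LT.heightIdeal p n h) ∧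
          ((J.IsRadical ∧ LT.IsInvariant p n Γ F J) ↔
            (J = ⊤ ∨ ∃ h ≤ n, J = LT.heightIdeal p n h)) := by
  refine ⟨LTC.exists_unique_honda hn,
    fun H hH => ⟨(LTC.isHonda_iff.1 hH).isComm hn, LTC.honda_series hn hH⟩,
    fun Γ hc hΓ => ⟨fun H hH => ?_, ?_, fun F hF hC => ?_⟩⟩
  · obtain ⟨v, hv, v1⟩ := (iso_honda hn hc hΓ (LTC.isHonda_iff.1 hH)).1
    exact ⟨v, LTC.isIso_iff.2 hv, v1⟩
  · obtain ⟨F, h1, h2⟩ := exists_univ hn hc hΓ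
    exact ⟨F, LTC.isUniversal_iff.2 h1, cutsOut_of_adapted h2⟩
  · have hF' := LTC.isUniversal_iff.1 hF
    refine ⟨fun σ γ hγ => ?_, fun J => ?_⟩
    · obtain ⟨φ, -, h⟩ := LTC.acts_iff hF' σ γ hγ
      exact ⟨φ, h⟩
    · rw [LTC.isInvariant_iff hF' J]
      exact chai_all hn hc hΓ hF' (adapted_of_cutsOut hn hc hΓ hF' hC) J

end Vale.Agent.P217B7
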