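import Vale.Agent.P217.Bdl.B3

/-!
# P217 bridge: the filtration by order and substitution
-/

namespace Vale.Agent.P217B7

open MvPowerSeries Vale.Agent.P217

variable {R : Type*} [CommRing R] {σ τ : Type*}

/-- The ideal of series of order at least `k`. -/
def O (R : Type*) [CommRing R] (τ : Type*) (k : ℕ) : Ideal (MvPowerSeries τ R) where
  carrier := {f | (k : ℕ∞) ≤ f.order}
  add_mem' := fun {_ _} ha hb => le_trans (le_min ha hb) min_order_le_add
  zero_mem' := by simp
  smul_mem' := fun c x hx => by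
    have h : (k : ℕ∞) ≤ x.order := hx
    change (k : ℕ∞) ≤ (c * x).order
    exact le_trans (le_trans h le_add_self) le_order_mul

theorem mem_O_order {k : ℕ} {f : MvPowerSeries τ R} : f ∈ O R τ k ↔ (k : ℕ∞) ≤ f.order :=
  Iff.rfl

theorem mem_O {k : ℕ} {f : MvPowerSeries τ R} :
    f ∈ O R τ k ↔ ∀ d : τ →₀ ℕ, d.degree < k → coeff d f = 0 := by
  rw [mem_O_order]
  constructor
  · intro h d hd
    exact coeff_of_lt_order (lt_of_lt_of_le (by exact_mod_cast hd) h)
  · exact nat_le_order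

theorem O_anti {k l : ℕ} (h : k ≤ l) {f : MvPowerSeries τ R} (hf : f ∈ O R τ l) : f ∈ O R τ k :=
  mem_O.2 fun d hd => mem_O.1 hf d (lt_of_lt_of_le hd h)

theorem O_mul {k l : ℕ} {f g : MvPowerSeries τ R} (hf : f ∈ O R τ k) (hg : g ∈ O R τ l) :
    f * g ∈ O R τ (k + l) := by
  rw [mem_O_order] at *
  push_cast
  exact le_trans (add_le_add hf hg) le_order_mul

theorem O_zero (f : MvPowerSeries τ R) : f ∈ O R τ 0 := mem_O.2 fun _ h => absurd h (by omega)

theorem O_one {f : MvPowerSeries τ R} : f ∈ O R τ 1 ↔ constantCoeff f = 0 := by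
  rw [mem_O]
  constructor
  · intro h
    rw [← coeff_zero_eq_constantCoeff_apply]
    exact h 0 (by simp)
  · intro h d hd
    have : d = 0 := by
      rw [← Finsupp.degree_eq_zero_iff]
      omega
    rw [this, coeff_zero_eq_constantCoeff_apply, h]

theorem O_pow {f : MvPowerSeries τ R} (hf : f ∈ O R τ 1) (m : ℕ) : f ^ m ∈ O R τ m := by
  induction m with
  | zero => exact O_zero _
  | succ m ih =>
    rw [pow_succ]
    exact O_mul ih hf

theorem O_X (s : τ) : (X s : MvPowerSeries τ R) ∈ O R τ 1 := O_one.2 (constantCoeff_X s)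

theorem eq_zero_of_O {f : MvPowerSeries τ R} (h : ∀ k, f ∈ O R τ k) : f = 0 := by
  ext d
  rw [map_zero]
  exact mem_O.1 (h (d.degree + 1)) d (Nat.lt_succ_self _)

theorem O_pow_sub {k : ℕ} {a b : MvPowerSeries τ R} (ha : a ∈ O R τ 1) (hb : b ∈ O R τ 1)
    (h : a - b ∈ O R τ k) (m : ℕ) : a ^ (m + 1) - b ^ (m + 1) ∈ O R τ (m + k) := by
  induction m with
  | zero => simpa using h
  | succ m ih =>
    have e : a ^ (m + 1 + 1) - b ^ (m + 1 + 1) =
        a * (a ^ (m + 1) - b ^ (m + 1)) + (a - b) * b ^ (m + 1) := by ring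
    rw [e]
    refine Ideal.add_mem _ (O_anti (by omega) (O_mul ha ih)) (O_anti (by omega)
      (O_mul h (O_pow hb (m + 1))))

theorem O_mon_sub {k m : ℕ} {a a' b b' : MvPowerSeries τ R} (ha : a ∈ O R τ 1)
    (ha' : a' ∈ O R τ 1) (hb : b ∈ O R τ 1) (hb' : b' ∈ O R τ 1) (h : a - b ∈ O R τ k)
    (h' : a' - b' ∈ O R τ k) (i j : ℕ) (hij : m + 1 ≤ i + j) :
    a ^ i * a' ^ j - b ^ i * b' ^ j ∈ O R τ (m + k) := by
  have e : a ^ i * a' ^ j - b ^ i * b' ^ j =
      (a ^ i - b ^ i) * a' ^ j + b ^ i * (a' ^ j - b' ^ j) := by ring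
  rw [e]
  refine Ideal.add_mem _ ?_ ?_
  · rcases i with _ | i
    · simp
    · exact O_anti (by omega) (O_mul (O_pow_sub ha hb h i) (O_pow ha' j))
  · rcases j with _ | j
    · simp
    · exact O_anti (by omega) (O_mul (O_pow hb i) (O_pow_sub ha' hb' h' j))

theorem hasSubst2 {a a' : MvPowerSeries τ R} (ha : a ∈ O R τ 1) (ha' : a' ∈ O R τ 1) :
    HasSubst ![a, a'] := fgHasSubst_pair (O_one.1 ha) (O_one.1 ha')

theorem prod2 (a a' : MvPowerSeries τ R) (d : Fin 2 →₀ ℕ) :
    (d.prod fun s k => (![a, a'] s) ^ k) = a ^ (d 0) * a' ^ (d 1) := by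
  rw [Finsupp.prod_fintype _ _ (by simp), Fin.prod_univ_two]
  rfl

/-- substitution into a series of order `> m` improves congruences by `m`. -/
theorem O_subst_sub {k m : ℕ} {D : MvPowerSeries (Fin 2) R} (hD : D ∈ O R (Fin 2) (m + 1))
    {a a' b b' : MvPowerSeries τ R} (ha : a ∈ O R τ 1)
    (ha' : a' ∈ O R τ 1) (hb : b ∈ O R τ 1) (hb' : b' ∈ O R τ 1) (h : a - b ∈ O R τ k)
    (h' : a' - b' ∈ O R τ k) :
    (D.subst ![a, a'] : MvPowerSeries τ R) - D.subst ![b, b'] ∈ O R τ (m + k) := by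
  refine mem_O.2 fun e he => ?_
  rw [map_sub, sub_eq_zero, coeff_subst (hasSubst2 ha ha'), coeff_subst (hasSubst2 hb hb')]
  refine finsum_congr fun d => ?_
  rw [prod2, prod2]
  by_cases hd : d.degree < m + 1
  · rw [mem_O.1 hD d hd, zero_smul, zero_smul]
  · rw [uc_degree2] at hd
    have h1 := mem_O.1 (O_mon_sub (m := m) ha ha' hb hb' h h' (d 0) (d 1) (by omega)) e he
    rw [map_sub, sub_eq_zero] at h1
    rw [h1]

theorem O_subst {m : ℕ} {D : MvPowerSeries σ R} (hD : D ∈ O R σ m) {a : σ → MvPowerSeries τ R}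
    (hs : HasSubst a) (ha : ∀ s, a s ∈ O R τ 1) :
    (D.subst a : MvPowerSeries τ R) ∈ O R τ m := by
  rw [mem_O_order] at *
  refine le_trans ?_ (le_order_subst hs D)
  have h1 : (1 : ℕ∞) ≤ ⨅ i, (a i).order := le_iInf fun i => by
    have := ha i
    rw [mem_O_order] at this
    exact_mod_cast this
  calc (m : ℕ∞) = 1 * m := (one_mul _).symm
    _ ≤ _ := mul_le_mul' h1 hD

theorem O_subst2 {m : ℕ} {D : MvPowerSeries (Fin 2) R} (hD : D ∈ O R (Fin 2) m)
    {a a' : MvPowerSeries τ R} (ha : a ∈ O R τ 1) (ha' : a' ∈ O R τ 1) :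
    (D.subst ![a, a'] : MvPowerSeries τ R) ∈ O R τ m :=
  O_subst hD (hasSubst2 ha ha') fun s => by
    fin_cases s
    · exact ha
    · exact ha'

theorem O_psubst {m : ℕ} {f : PowerSeries R} (hf : f ∈ O R Unit m) {a : MvPowerSeries τ R}
    (ha : a ∈ O R τ 1) : (PowerSeries.subst a f : MvPowerSeries τ R) ∈ O R τ m :=
  O_subst hf (fgHasSubst_const (O_one.1 ha)) fun _ => ha

theorem O_FG (F : FormalGroup R) : F.toPowerSeries ∈ O R (Fin 2) 1 := O_one.2 F.zero_constantCoeff

theorem O_FG2 (F : FormalGroup R) :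
    F.toPowerSeries - (X 0 + X 1) ∈ O R (Fin 2) 2 := by
  obtain ⟨H, hH⟩ := exists_FG_decomp F
  rw [hH, add_sub_cancel_left]
  exact Ideal.mul_mem_right _ _ (O_mul (O_X 0) (O_X 1))

theorem FG_subst_eq (F : FormalGroup R) {a a' : MvPowerSeries τ R} (ha : a ∈ O R τ 1)
    (ha' : a' ∈ O R τ 1) :
    (F.toPowerSeries.subst ![a, a'] : MvPowerSeries τ R) =
      a + a' + (F.toPowerSeries - (X 0 + X 1)).subst ![a, a'] := by
  have hs := hasSubst2 ha ha'
  rw [subst_sub hs, subst_add hs, subst_X hs, subst_X hs]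
  simp

theorem O_FG_subst (F : FormalGroup R) {a a' : MvPowerSeries τ R} (ha : a ∈ O R τ 1)
    (ha' : a' ∈ O R τ 1) :
    (F.toPowerSeries.subst ![a, a'] : MvPowerSeries τ R) ∈ O R τ 1 := O_subst2 (O_FG F) ha ha'

theorem O_FG_subst2 (F : FormalGroup R) {a a' : MvPowerSeries τ R} (ha : a ∈ O R τ 1)
    (ha' : a' ∈ O R τ 1) :
    (F.toPowerSeries.subst ![a, a'] : MvPowerSeries τ R) - (a + a') ∈ O R τ 2 := by
  rw [FG_subst_eq F ha ha', add_sub_cancel_left]
  exact O_subst2 (O_FG2 F) ha ha'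

/-- a formal group law is additive to first order. -/
theorem O_FG_sub (F : FormalGroup R) {k : ℕ} {a a' b b' : MvPowerSeries τ R} (ha : a ∈ O R τ 1)
    (ha' : a' ∈ O R τ 1) (hb : b ∈ O R τ 1) (hb' : b' ∈ O R τ 1) (h : a - b ∈ O R τ k)
    (h' : a' - b' ∈ O R τ k) :
    (F.toPowerSeries.subst ![a, a'] : MvPowerSeries τ R) - F.toPowerSeries.subst ![b, b'] -
      ((a - b) + (a' - b')) ∈ O R τ (k + 1) := by
  rw [FG_subst_eq F ha ha', FG_subst_eq F hb hb']
  have h1 := O_subst_sub (m := 1) (O_FG2 F) ha ha' hb hb' h h'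
  rw [add_comm 1 k] at h1
  convert h1 using 1
  ring

theorem mem_O_ps {k : ℕ} {f : PowerSeries R} :
    f ∈ O R Unit k ↔ ∀ j < k, PowerSeries.coeff j f = 0 := by
  rw [mem_O]
  constructor
  · intro h j hj
    exact h (Finsupp.single () j) (by simpa using hj)
  · intro h d hd
    have e : d = Finsupp.single () (d ()) := Finsupp.unique_single d
    have h1 := h (d ()) (by
      rw [e] at hd
      simpa using hd)
    rw [e]
    exact h1

theorem O_psX : (PowerSeries.X : PowerSeries R) ∈ O R Unit 1 := O_X ()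

/-- the degree `N` part of a series of order at least `N`. -/
theorem O_top {N : ℕ} {D : MvPowerSeries (Fin 2) R} (hD : D ∈ O R (Fin 2) N) :
    D - ∑ i ∈ Finset.range (N + 1),
      C (coeff (Finsupp.single 0 i + Finsupp.single 1 (N - i)) D) * X 0 ^ i * X 1 ^ (N - i) ∈
        O R (Fin 2) (N + 1) := by
  classical
  refine mem_O.2 fun d hd => ?_
  rw [uc_degree2] at hd
  have key : ∀ i ∈ Finset.range (N + 1), coeff d
      (C (coeff (Finsupp.single 0 i + Finsupp.single 1 (N - i)) D) * X 0 ^ i * X 1 ^ (N - i) :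
        MvPowerSeries (Fin 2) R) =
      if i = d 0 then (if d 0 + d 1 = N then coeff d D else 0) else 0 := by
    intro i hi
    rw [Finset.mem_range] at hi
    rw [mul_assoc, coeff_C_mul, X_pow_eq, X_pow_eq, monomial_mul_monomial, coeff_monomial, mul_one]
    by_cases h : d = Finsupp.single 0 i + Finsupp.single 1 (N - i)
    · have h0 : d 0 = i := by rw [h]; simp
      have h1 : d 1 = N - i := by rw [h]; simp
      rw [if_pos h, if_pos h0.symm, if_pos (by omega), mul_one, ← h]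
    · rw [if_neg h, mul_zero]
      split_ifs with h1 h2
      · exfalso
        apply h
        rw [h1, ← h2, Nat.add_sub_cancel_left, uc_exp2]
      · rfl
      · rfl
  rw [map_sub, map_sum, Finset.sum_congr rfl key, Finset.sum_ite_eq']
  by_cases h : d 0 + d 1 = N
  · rw [if_pos (Finset.mem_range.2 (by omega)), if_pos h, sub_self]
  · rw [if_neg h, ite_self, sub_zero]
    exact mem_O.1 hD d (by rw [uc_degree2]; omega)

end Vale.Agent.P217B7
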