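import Vale.Agent.P217B7.Iso

/-!
# P217 bridge: transport of universal deformations along an isomorphism defined over `ℤ`
-/

namespace Vale.Agent.P217B7

open MvPowerSeries Vale.Agent.P217

section Int

/-- the image in `A[[X]]` of a series over `ℤ`. -/
noncomputable def zc (A : Type*) [CommRing A] (V : PowerSeries ℤ) : PowerSeries A :=
  V.map (Int.castRingHom A)

variable {A B : Type*} [CommRing A] [CommRing B]

theorem zc_map (φ : A →+* B) (V : PowerSeries ℤ) : (zc A V).map φ = zc B V := by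
  rw [zc, zc, C0.ps_map_comp]
  congr 2
  exact RingHom.ext_int _ _

theorem zc_cc {V : PowerSeries ℤ} (h : PowerSeries.constantCoeff V = 0) :
    PowerSeries.constantCoeff (zc A V) = 0 := by
  rw [zc, ← PowerSeries.coeff_zero_eq_constantCoeff_apply, PowerSeries.coeff_map,
    PowerSeries.coeff_zero_eq_constantCoeff_apply, h, map_zero]

theorem zc_unit {V : PowerSeries ℤ} (h : IsUnit (PowerSeries.coeff 1 V)) :
    IsUnit (PowerSeries.coeff 1 (zc A V)) := by
  rw [zc, PowerSeries.coeff_map]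
  exact h.map _

theorem zc_subst {V W : PowerSeries ℤ} (h : PowerSeries.constantCoeff V = 0)
    (e : (PowerSeries.subst V W : PowerSeries ℤ) = PowerSeries.X) :
    (PowerSeries.subst (zc A V) (zc A W) : PowerSeries A) = PowerSeries.X := by
  rw [zc, zc, ← C0.ps_map_subst _ h, e, PowerSeries.map_X]

theorem isIso_inv {F G : FormalGroup A} {f g : PowerSeries A} (h : IsIso F G f)
    (e : (PowerSeries.subst f g : PowerSeries A) = PowerSeries.X) : IsIso G F g := by
  obtain ⟨g', hg', -, k2⟩ := h.symmC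
  have h1 : (PowerSeries.subst g' (PowerSeries.subst f g : PowerSeries A) : PowerSeries A) = g := by
    rw [psubst_psubst h.1.1 hg'.1.1, k2, PowerSeries.X_subst]
  rw [e, PowerSeries.subst_X (C0.hasSubst_of_cc hg'.1.1)] at h1
  rwa [← h1]

/-- a pair of mutually inverse series over `ℤ`. -/
structure InvPair (V W : PowerSeries ℤ) : Prop where
  v0 : PowerSeries.constantCoeff V = 0
  w0 : PowerSeries.constantCoeff W = 0
  v1 : IsUnit (PowerSeries.coeff 1 V)
  w1 : IsUnit (PowerSeries.coeff 1 W)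
  vw : (PowerSeries.subst V W : PowerSeries ℤ) = PowerSeries.X
  wv : (PowerSeries.subst W V : PowerSeries ℤ) = PowerSeries.X

theorem InvPair.symm {V W : PowerSeries ℤ} (h : InvPair V W) : InvPair W V :=
  ⟨h.w0, h.v0, h.w1, h.v1, h.wv, h.vw⟩

theorem InvPair.inv {V W : PowerSeries ℤ} (h : InvPair V W) {F G : FormalGroup A}
    (e : IsIso F G (zc A V)) : IsIso G F (zc A W) := isIso_inv e (zc_subst h.v0 h.vw)

theorem zc_iso_map {V : PowerSeries ℤ} {F G : FormalGroup A} (e : IsIso F G (zc A V))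
    (φ : A →+* B) : IsIso (F.map φ) (G.map φ) (zc B V) := by
  have h := e.mapC φ
  rwa [zc_map] at h

theorem exists_invPair {p : ℕ} [Fact p.Prime] (v : PowerSeries (ZMod p))
    (h0 : PowerSeries.constantCoeff v = 0) (h1 : PowerSeries.coeff 1 v = 1) :
    ∃ V W, InvPair V W ∧ zc (ZMod p) V = v := by
  let V : PowerSeries ℤ := PowerSeries.mk fun j =>
    if j = 0 then 0 else if j = 1 then 1 else ((PowerSeries.coeff j v).val : ℤ)
  have v0 : PowerSeries.constantCoeff V = 0 := by
    rw [← PowerSeries.coeff_zero_eq_constantCoeff_apply, PowerSeries.coeff_mk, if_pos rfl]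
  have v1 : IsUnit (PowerSeries.coeff 1 V) := by
    rw [PowerSeries.coeff_mk, if_neg one_ne_zero, if_pos rfl]
    exact isUnit_one
  obtain ⟨W, w0, w1, a, b⟩ := exists_comp_inv v0 v1
  refine ⟨V, W, ⟨v0, w0, v1, w1, b, a⟩, ?_⟩
  ext j
  rw [zc, PowerSeries.coeff_map, PowerSeries.coeff_mk]
  split_ifs with a0 a1
  · rw [a0, PowerSeries.coeff_zero_eq_constantCoeff_apply, h0, map_zero]
  · rw [a1, h1, map_one]
  · simp

/-- conjugation `b ∘ g ∘ a`. -/
noncomputable def cj (a g b : PowerSeries A) : PowerSeries A :=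
  PowerSeries.subst (PowerSeries.subst a g : PowerSeries A) b

theorem cj_iso {F₁ F₂ F₃ F₄ : FormalGroup A} {a g b : PowerSeries A} (ha : IsIso F₁ F₂ a)
    (hg : IsIso F₂ F₃ g) (hb : IsIso F₃ F₄ b) : IsIso F₁ F₄ (cj a g b) := (ha.compC hg).compC hb

theorem cj_map {V W : PowerSeries ℤ} (h : InvPair V W) (φ : A →+* B) {g : PowerSeries A}
    (g0 : PowerSeries.constantCoeff g = 0) (hg : g.map φ = PowerSeries.X) :
    (cj (zc A V) g (zc A W)).map φ = PowerSeries.X := by
  have c0 : PowerSeries.constantCoeff (PowerSeries.subst (zc A V) g : PowerSeries A) = 0 :=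
    PowerSeries.constantCoeff_subst_eq_zero (zc_cc h.v0) _ g0
  rw [cj, C0.ps_map_subst _ c0, C0.ps_map_subst _ (zc_cc h.v0), hg, zc_map, zc_map,
    PowerSeries.subst_X (C0.hasSubst_of_cc (zc_cc h.v0)), zc_subst h.v0 h.vw]

theorem cj_cj {V W : PowerSeries ℤ} (h : InvPair V W) {g : PowerSeries A}
    (g0 : PowerSeries.constantCoeff g = 0) :
    cj (zc A W) (cj (zc A V) g (zc A W)) (zc A V) = g := by
  have v0 : PowerSeries.constantCoeff (zc A V) = 0 := zc_cc h.v0
  have w0 : PowerSeries.constantCoeff (zc A W) = 0 := zc_cc h.w0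
  have c0 : PowerSeries.constantCoeff (PowerSeries.subst (zc A V) g : PowerSeries A) = 0 :=
    PowerSeries.constantCoeff_subst_eq_zero v0 _ g0
  rw [cj, cj, psubst_psubst c0 w0, psubst_psubst v0 w0, zc_subst h.w0 h.wv, PowerSeries.X_subst,
    ← psubst_psubst w0 g0, zc_subst h.w0 h.wv, PowerSeries.subst_X (C0.hasSubst_of_cc g0)]

end Int

variable {p n : ℕ} [Fact p.Prime] {Γ H : FormalGroup (ZMod p)} {F F' : FormalGroup (E0 p n)}
  {V W : PowerSeries ℤ}

theorem univ_transport (hVW : InvPair V W) (hΓ : IsIso Γ H (zc _ V))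
    (hF : IsUniversalDeformation p n Γ F) (hc : F'.IsComm) (hFF : IsIso F F' (zc _ V)) :
    IsUniversalDeformation p n H F' := by
  have b1 := zc_iso_map hΓ (algebraMap (ZMod p) (GaloisField p n))
  refine ⟨hc, ?_, ?_⟩
  · have b2 := zc_iso_map hFF (red p n)
    rw [hF.reduction] at b2
    exact b2.targetC b1
  · intro A _ _ _ _ i G _ hred
    obtain ⟨G', hG', hGG⟩ := C0.exists_transport G (zc A W) (zc_cc hVW.w0) (zc_unit hVW.w1)
    have hred' : G'.map (IsLocalRing.residue A) =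
        (Γ.map (algebraMap (ZMod p) (GaloisField p n))).map i := by
      have b2 := zc_iso_map hGG (IsLocalRing.residue A)
      rw [hred] at b2
      exact b2.targetC (zc_iso_map (hVW.inv b1) i)
    obtain ⟨⟨φ, g⟩, ⟨a1, a2, a3⟩, hu⟩ := hF.universal A i G' hred'
    refine ⟨(φ, cj (zc A W) g (zc A V)), ⟨a1,
      cj_iso (hVW.inv (zc_iso_map hFF φ)) a2 (hVW.symm.inv hGG), cj_map hVW.symm _ a2.1.1 a3⟩, ?_⟩
    rintro ⟨ψ, f⟩ ⟨c1, c2, c3⟩
    have h1 := hu (ψ, cj (zc A V) f (zc A W))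
      ⟨c1, cj_iso (zc_iso_map hFF ψ) c2 hGG, cj_map hVW _ c2.1.1 c3⟩
    obtain ⟨h2, h3⟩ := Prod.mk.inj h1
    refine Prod.ext h2 ?_
    change f = cj (zc A W) g (zc A V)
    rw [← h3, cj_cj hVW c2.1.1]

/-- the ideal generated by `p` and the coefficients of `[p]_F` of degree `< p^h`. -/
noncomputable def hId {A : Type*} [CommRing A] (p : ℕ) (F : FormalGroup A) (h : ℕ) : Ideal A :=
  Ideal.span ({(p : A)} ∪ {x | ∃ j < p ^ h, x = PowerSeries.coeff j (multSeries F p)})

theorem hId_le_iff {A : Type*} [CommRing A] {p : ℕ} {F : FormalGroup A} {h : ℕ} {I : Ideal A} :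
    hId p F h ≤ I ↔
      (p : A) ∈ I ∧ ∀ j < p ^ h, PowerSeries.coeff j (multSeries F p) ∈ I := by
  rw [hId, Ideal.span_le, Set.union_subset_iff, Set.singleton_subset_iff]
  refine and_congr Iff.rfl ⟨fun H j hj => H ⟨j, hj, rfl⟩, ?_⟩
  rintro H x ⟨j, hj, rfl⟩
  exact H j hj

theorem hId_iso {A : Type*} [CommRing A] {p : ℕ} {F G : FormalGroup A} {g : PowerSeries A}
    (e : IsIso F G g) (h : ℕ) : hId p F h = hId p G h := by
  refine eq_of_forall_ge_iff fun I => ?_
  rw [hId_le_iff, hId_le_iff, e.coeff_multSeries_mem]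

theorem hId_map {A B : Type*} [CommRing A] [CommRing B] {p : ℕ} (F : FormalGroup A)
    (φ : A →+* B) (h : ℕ) : hId p (F.map φ) h = (hId p F h).map φ := by
  refine eq_of_forall_ge_iff fun I => ?_
  rw [Ideal.map_le_iff_le_comap, hId_le_iff, hId_le_iff, ← fbMap_multSeries]
  simp only [Ideal.mem_comap, map_natCast, PowerSeries.coeff_map]

theorem adapted_transport {g : PowerSeries (E0 p n)} (e : IsIso F F' g)
    (hH : HeightAdapted p n F) : HeightAdapted p n F' :=
  fun h h1 h2 => (hH h h1 h2).trans (hId_iso e h)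

theorem invariant_of_iso {g : PowerSeries (E0 p n)} (e : IsIso F F' g) {J : Ideal (E0 p n)}
    (hJ : IsInvariant p n F J) : IsInvariant p n F' J := by
  intro φ f hf
  obtain ⟨g', hg', -, -⟩ := e.symmC
  exact hJ φ _ (cj_iso e hf (hg'.mapC (φ : E0 p n →+* E0 p n)))

theorem invariant_iff {g : PowerSeries (E0 p n)} (e : IsIso F F' g) (J : Ideal (E0 p n)) :
    IsInvariant p n F J ↔ IsInvariant p n F' J := by
  obtain ⟨g', hg', -, -⟩ := e.symmC
  exact ⟨invariant_of_iso e, invariant_of_iso hg'⟩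

/-- universal deformations are transported along strict isomorphisms over `𝔽_p`. -/
theorem exists_univ_transport {v : PowerSeries (ZMod p)} (e : IsIso Γ H v)
    (v1 : PowerSeries.coeff 1 v = 1) (hF : IsUniversalDeformation p n Γ F) :
    ∃ F' g, IsUniversalDeformation p n H F' ∧ IsIso F F' g := by
  obtain ⟨V, W, hVW, rfl⟩ := exists_invPair v e.1.1 v1
  have := hF.comm
  obtain ⟨F', hc, hFF⟩ := C0.exists_transport F (zc _ V) (zc_cc hVW.v0) (zc_unit hVW.v1)
  exact ⟨F', _, univ_transport hVW e hF hc hFF, hFF⟩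

/-- two universal deformations differ by an automorphism of `E₀`. -/
theorem exists_equiv (hF : IsUniversalDeformation p n Γ F)
    (hF' : IsUniversalDeformation p n Γ F') :
    ∃ (φ : E0 p n ≃+* E0 p n) (g : PowerSeries (E0 p n)),
      IsIso (F.map (φ : E0 p n →+* E0 p n)) F' g := by
  have := CA.isAdicComplete_E0 (p := p) (n := n)
  obtain ⟨i, hi⟩ := C0.exists_factor_red (IsLocalRing.residue (E0 p n)) (by
    rw [IsLocalRing.ker_residue])
  have key : ∀ {F F' : FormalGroup (E0 p n)}, IsUniversalDeformation p n Γ F →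
      IsUniversalDeformation p n Γ F' → ∃ (φ : E0 p n →+* E0 p n) (g : PowerSeries (E0 p n)),
        (IsLocalRing.residue (E0 p n)).comp φ = IsLocalRing.residue (E0 p n) ∧
        IsIso (F.map φ) F' g ∧ g.map (IsLocalRing.residue (E0 p n)) = PowerSeries.X := by
    intro F F' hF hF'
    have := hF'.comm
    obtain ⟨⟨φ, g⟩, ⟨a1, a2, a3⟩, -⟩ := hF.universal (E0 p n) i F' (by
      rw [← hF'.reduction, C0.FG_map_map, hi])
    exact ⟨φ, g, a1.trans hi, a2, a3⟩
  have key2 : ∀ {F F' : FormalGroup (E0 p n)}, IsUniversalDeformation p n Γ F →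
      ∀ (φ ψ : E0 p n →+* E0 p n) (g f : PowerSeries (E0 p n)),
        (IsLocalRing.residue (E0 p n)).comp φ = IsLocalRing.residue (E0 p n) →
        IsIso (F.map φ) F' g → g.map (IsLocalRing.residue (E0 p n)) = PowerSeries.X →
        (IsLocalRing.residue (E0 p n)).comp ψ = IsLocalRing.residue (E0 p n) →
        IsIso (F'.map ψ) F f → f.map (IsLocalRing.residue (E0 p n)) = PowerSeries.X →
        ψ.comp φ = RingHom.id _ := by
    intro F F' hF φ ψ g f a1 a2 a3 b1 b2 b3
    have h1 := (a2.mapC ψ).compC b2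
    rw [C0.FG_map_map] at h1
    have h2 : IsIso (F.map (ψ.comp φ)) (F.map (RingHom.id _))
        (PowerSeries.subst (g.map ψ) f : PowerSeries (E0 p n)) := by
      rwa [C0.FG_map_id]
    refine (C0.rigid hF i (x := ψ.comp φ) (y := RingHom.id _) ?_ ?_ h2 ?_).1
    · rw [← RingHom.comp_assoc, b1, a1, hi]
    · rw [RingHom.comp_id, hi]
    · rw [C0.ps_map_subst _ (a2.mapC ψ).1.1, b3, C0.ps_map_comp, b1, a3,
        PowerSeries.X_subst]
  obtain ⟨φ, g, a1, a2, a3⟩ := key hF hF'
  obtain ⟨ψ, f, b1, b2, b3⟩ := key hF' hF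
  exact ⟨RingEquiv.ofRingHom φ ψ (key2 hF' ψ φ f g b1 b2 b3 a1 a2 a3)
    (key2 hF φ ψ g f a1 a2 a3 b1 b2 b3), g, a2⟩

end Vale.Agent.P217B7
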